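import Vale.Agent.P167.N.H436.ND.Cut2
import Vale.Agent.P167.N.FKA.All
import Vale.Agent.P167.N.H562.Q.CB3
import Vale.Agent.P167.N.H562.Q.MQ2
import Vale.Agent.P167.N.H562.Q.MQ3
import Vale.Agent.P167.H662.ND.SY

/-!
# P167, `0 < q < 1`, block Q-ND: moments and locality of the majorants of a ring (`s_Y`)
-/

set_option autoImplicit false

namespace Vale.Agent.P167.N.H662.ND

open Vale.Agent.P167.H662.ND Vale.Agent.P167.H662

open Finset MeasureTheory Vale.Agent.P167 Vale.Agent.P167.BR Vale.Agent.P167.FK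

open Vale.Agent.P167.FKA (Loc Ind ArmDec)

open Vale.Agent.P167.H436.ND hiding Yl S_Y

open Vale.Agent.P167.N.H436.ND (Yl S_Y)

open Vale.Agent.P167.H519 (IsLim)

open Vale.Agent.P167.H562 (Em Em_mono Em_eq)

open Vale.Agent.P167.H562.GL (Nu CrossP crossP loc_integrable)

open Vale.Agent.P167.H562.QM (MajA NbP FltQ OneC macro_B Nr Sm_mom_U ex_of_nu ex_cs quad_UA Sm_Loc)

open Vale.Agent.P167.H562.MAJ (Sm Sm_loc exists_cball)

open Vale.Agent.P167.H562.SML (smf mem_smf fat smf_loc' Bd bd_G)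

variable {Q : ℝ} {P : Measure Cfg} {D : Finset (ℤ × ℤ)} {η : Cfg} {b : ℤ × ℤ} {a R : ℤ}
  {pl pr : Bool} {f : ℤ × ℤ → ℝ} {Cm τ : ℝ}

/-- The three moments. -/
theorem three (hQ : Kit Q) (hR0 : RSW Q) (hP : IsLim Q P) (Cm T : ℝ) (hCm : 0 < Cm) (hT : 0 ≤ T) :
    ∃ (C : ℝ) (a₀ : ℤ), 1 ≤ C ∧ 4 ≤ a₀ ∧ ∀ (b : ℤ × ℤ) (a : ℤ), a₀ ≤ a → ∃ N : Cfg → ℕ,
      (∀ ω, MajA (Zr b a) (kp * a) ω (N ω)) ∧
      ∀ (D : Finset (ℤ × ℤ)) (η : Cfg) (R : ℤ) (pl pr : Bool), Flt D b R → FltO D η b R pl pr →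
      8 * a ≤ R → Rd D (Zg b (a / 2) (3 * a)) (fun ω => (N ω : ℝ)) ∧
      ∀ f : ℤ × ℤ → ℝ, Bp Cm b a f → ∀ τ : ℝ, |τ| ≤ 1 → ∀ g : Cfg → ℝ, (∀ ω, 0 ≤ g ω) →
        Ind (Zg b (a / 2) (3 * a)) g →
        Ex Q D η (fun ω => g ω * Real.exp (T * (N ω : ℝ))) ≤ C * Ex Q D η g ∧
        (∀ t, |t| ≤ T → Ex Q D η (fun ω => g ω * Real.exp (t *
          (Sm (fun z => τ * f z) (kp * a) ω - τ * NbP P (kp * a)))) ≤ C * Ex Q D η g) ∧
        Ex Q D η (fun ω => g ω * Real.exp (T * Sq (fun z => τ * f z) b a ω)) ≤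
          C * Ex Q D η g := by
  have hQ_pos := hQ.pos
  classical
  have hQ0 : 0 < Q := by linarith
  have hPp : IsProbabilityMeasure P := hP.1
  obtain ⟨al, Ca, hal, hCa, hdec, -⟩ := FKA.arm_fk hQ hR0
  have hX : CrossP P := crossP hP (FKA.crossFK hQ hR0)
  have hkp : (0 : ℝ) < kp := by unfold kp; norm_num
  obtain ⟨ε, C1, ρ1, -, hC1, -, h1⟩ := Vale.Agent.P167.N.H562.QM.macro_B hQ hR0 kp 2 T 0 hkp (by norm_num)
  obtain ⟨C2, hC2, h2⟩ := Vale.Agent.P167.N.H562.QM.Sm_mom_U hQ hal hCa hdec hP hX kp 2 Cm T hkp (by norm_num) hCm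
  obtain ⟨C3, hC3, h3⟩ := quad_UA hX (R := 2) (κ := kp) (T * Cm ^ 2) (by norm_num) hkp
  set C : ℝ := max (max C1 1) (max (Real.exp C2) (Real.exp (C3 * (T * Cm ^ 2)))) with hC
  have c1 : C1 ≤ C := (le_max_left _ _).trans (le_max_left _ _)
  have c2 : Real.exp C2 ≤ C := (le_max_left _ _).trans (le_max_right _ _)
  have c3 : Real.exp (C3 * (T * Cm ^ 2)) ≤ C := (le_max_right _ _).trans (le_max_right _ _)
  refine ⟨C, max 4 ⌈ρ1⌉, (le_max_right _ _).trans (le_max_left _ _), le_max_left _ _,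
    fun b a ha => ?_⟩
  have ha4 : 4 ≤ a := (le_max_left _ _).trans ha
  have haρ : ρ1 ≤ a := by
    have h4 : (⌈ρ1⌉ : ℤ) ≤ a := (le_max_right _ _).trans ha
    exact (Int.le_ceil _).trans (by exact_mod_cast h4)
  have ha1 : (1 : ℝ) ≤ a := by exact_mod_cast (by omega : 1 ≤ a)
  have hZr : ∀ v ∈ Zr b a, (nm (v - b) : ℝ) ≤ 2 * (a : ℝ) := by
    intro v hv
    unfold Zr at hv
    rw [mem_sdiff, mem_hbox, mem_hbox] at hv
    have h4 : nm (v - b) ≤ 2 * a := by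
      rw [nm_le_iff]
      simp only [Prod.fst_sub, Prod.snd_sub]
      omega
    exact_mod_cast h4
  obtain ⟨N, hN1, hN2, hN3⟩ := h1 (a : ℝ) haρ b (Zr b a) hZr (fun i => i.elim0)
  refine ⟨N, hN2, fun D η R pl pr hF hO hR => ⟨?_, fun f hf τ hτ g hg0 hg => ⟨?_, ?_, ?_⟩⟩⟩
  · intro ω ω' hw hw'
    simp only
    rw [hN1 ω ω' fun v hv _ => ?_]
    by_cases hvD : v ∈ D
    · exact hw v ((near_ring hF ha4 hR hv).2 hvD)
    · exact hw' v hvD
  · have hg' := hN3 D η hO.good (fun y r hr hy => FltQ.oneC (FltO.fltQ hF hO) fun v hv =>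
      (near_ring hF ha4 hR (hy v hv)).1) g hg0 fun ω ω' hw => hg ω ω' fun v hv =>
        hw v fun hv' => hv ((near_ring hF ha4 hR hv'.2).2 hv'.1)
    exact hg'.trans (mul_le_mul_of_nonneg_right c1 (FKA.Ex_nonneg hQ0 fun S _ => hg0 _))
  · intro t ht
    obtain ⟨F, hFF⟩ := bp_fin hf (by omega)
    have hF' : ∀ z, τ * f z ≠ 0 → z ∈ F := fun z h => hFF z (tf_ne h)
    obtain ⟨A0, hA0⟩ := Sm_Loc hF' (kp * a)
    have hL : Loc A0 (fun ω => Real.exp (t *
        (Sm (fun z => τ * f z) (kp * a) ω - τ * NbP P (kp * a)))) := by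
      intro ω ω' hw
      simp only
      rw [hA0 ω ω' hw]
    set U : Finset (ℤ × ℤ) := D.filter (fun v => ∃ z, τ * f z ≠ 0 ∧
      (nm (v - z) : ℝ) ≤ 33 * kp * a) with hU
    have hb := Vale.Agent.P167.N.H562.QM.ex_of_nu hQ hP hO.good (filter_subset _ _) (U := U) hL (C := Real.exp C2)
      (fun ν hν => ?_) hg0 (fun ω ω' hw => hg ω ω' fun v hv => hw v fun hv' => hv (by
        obtain ⟨-, z, hz, hvz⟩ := mem_filter.1 hv'
        exact (near_core' hF ha4 hR (hf.supp z (tf_ne hz)) hvz).2.1))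
    · exact hb.trans (mul_le_mul_of_nonneg_right c2 (FKA.Ex_nonneg hQ0 fun S _ => hg0 _))
    · have hνp := hν.prob
      have h4 := h2 a ha1 b (fun z => τ * f z) (tf_le hf hτ) (fun z hz => by
          obtain ⟨z1, z2, z3, z4⟩ := hf.supp z (tf_ne hz)
          have : nm (z - b) ≤ 2 * a := by
            rw [nm_le_iff]
            simp only [Prod.fst_sub, Prod.snd_sub]
            omega
          exact_mod_cast this) U ν
        (fun z hz v hv => mem_filter.2 ⟨(near_core' hF ha4 hR (hf.supp z (tf_ne hz)) hv).1, z, hz,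
          hv⟩) hν t ht
      rw [tf_sum hf, Em_eq (loc_integrable hL), ENNReal.ofReal_le_ofReal_iff (Real.exp_pos _).le] at h4
      exact h4
  · set A : Finset (ℤ × ℤ) := (Zr b a).filter fun v => ∃ z, f z ≠ 0 ∧
      (nm (v - z) : ℝ) ≤ kp * a with hA
    set U : Finset (ℤ × ℤ) := D.filter (fun v => ∃ z, f z ≠ 0 ∧
      (nm (v - z) : ℝ) ≤ 33 * kp * a) with hU
    set F2 : Cfg → ℝ := fun ω => ∑ ℓ ∈ smf A (kp * a) ω, (G (fun z => τ * f z) ℓ) ^ 2 with hF2
    have hL : Loc (fat A (kp * a)) (fun ω => Real.exp (T * F2 ω)) := by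
      intro ω ω' hw
      simp only [hF2]
      rw [smf_loc' A (kp * a) hw]
    have hb := Vale.Agent.P167.N.H562.QM.ex_of_nu (D := D) (η := η) (G := g) hQ hP hO.good (filter_subset _ _) (U := U) hL
      (C := Real.exp (C3 * (T * Cm ^ 2)))
      (fun ν hν => ?_) hg0 (fun ω ω' hw => hg ω ω' fun v hv => hw v fun hv' => hv (by
        obtain ⟨-, z, hz, hvz⟩ := mem_filter.1 hv'
        exact (near_core' hF ha4 hR (hf.supp z hz) hvz).2.1))
    · refine le_trans (FKA.Ex_mono hQ0 fun S _ => ?_) (hb.trans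
        (mul_le_mul_of_nonneg_right c3 (FKA.Ex_nonneg hQ0 fun S _ => hg0 _)))
      refine mul_le_mul_of_nonneg_left (Real.exp_le_exp.2 (mul_le_mul_of_nonneg_left ?_ hT)) (hg0 _)
      have h4 := sum_sq (τ := τ) hF ha4 hR hf (cf D η S)
      exact h4
    · have hνp := hν.prob
      have h4 := h3 a ha1 b A (fun v hv => hZr v (mem_filter.1 hv).1) U ν (fun u hu v hv => by
          obtain ⟨-, z, hz, huz⟩ := mem_filter.1 hu
          have h5 : (nm (v - z) : ℝ) ≤ 33 * kp * a := by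
            have h6 : nm (v - z) ≤ nm (v - u) + nm (u - z) := H45.nm_sub_le _ _ _
            have h7 : (nm (v - z) : ℝ) ≤ nm (v - u) + nm (u - z) := by exact_mod_cast h6
            linarith
          exact mem_filter.2 ⟨(near_core' hF ha4 hR (hf.supp z hz) h5).1, z, hz, h5⟩) hν
        (fun ℓ => G (fun z => τ * f z) ℓ) Cm hCm.le (bd_G ha1 hCm.le (tf_le hf hτ)) T hT le_rfl
      rw [Em_eq (loc_integrable hL), ENNReal.ofReal_le_ofReal_iff (Real.exp_pos _).le] at h4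
      exact h4

/-- **(YM)** Moments and locality of the majorants. -/
theorem s_Y {θ : ℝ} (h0 : 0 < θ) (h1 : Ang θ) (hR0 : RSW (2 * Real.cos θ))
    (hP : IsLim (2 * Real.cos θ) P) : S_Y θ P := by
  have h1_lt := h1.lt
  intro Cm M hCm hM
  have hQ : Kit (2 * Real.cos θ) := h1.kit
  have hQ0 : 0 < 2 * Real.cos θ := hQ.pos
  have htan : 0 < Real.tan θ := Real.tan_pos_of_pos_of_lt_pi_div_two h0 (by linarith [Real.pi_pos])
  have hlM : 0 ≤ Real.log M := Real.log_nonneg hM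
  set t0 : ℝ := Real.tan θ with ht0
  have hkw : 0 ≤ kw θ := (kw_pos h0.le h1.lt).le
  set T : ℝ := 8 * kw θ + 8 * Real.log M + 8 * t0 with hT
  have hT0 : 0 ≤ T := by positivity
  obtain ⟨C, a₀, hC, ha0, h⟩ := three hQ hR0 hP Cm T hCm hT0
  have hC0 : 0 ≤ C := by linarith
  refine ⟨C, a₀, by linarith, fun b a ha => ?_⟩
  have ha4 : 4 ≤ a := ha0.trans ha
  obtain ⟨N, hN, hN2⟩ := h b a ha
  refine ⟨N, hN, fun D η R pl pr hF hO hR f hf τ hτ => ?_⟩
  obtain ⟨rN, hmom⟩ := hN2 D η R pl pr hF hO hR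
  have rS := Sm_rd (τ := τ) hF ha4 hR hf
  have rQ := Sq_rd hF ha4 hR (fun z => τ * f z)
  have eYu : (fun ω => Yu θ M τ f a (N ω) ω) = fun ω =>
      Real.exp (Real.log M * (N ω : ℝ)) *
        Real.exp (-(t0 * Sm (fun z => τ * f z) (kp * a) ω)) := by
    funext ω
    unfold Yu
    rw [pow_log hM]
  have eYl : (fun ω => Yl θ M τ f b a (N ω) ω) = fun ω =>
      Real.exp (Real.log M * (N ω : ℝ)) *
        Real.exp (t0 * Sm (fun z => τ * f z) (kp * a) ω + kw θ * Sq (fun z => τ * f z) b a ω) := by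
    funext ω
    unfold Yl Sq
    rw [pow_log hM]
  refine ⟨?_, ?_, fun g hg0 hg => ?_⟩
  · rw [eYu]
    exact Rd.comp2 rN rS fun x y => Real.exp (Real.log M * x) * Real.exp (-(t0 * y))
  · rw [eYl]
    exact Rd.comp3 rN rS rQ fun x y z => Real.exp (Real.log M * x) * Real.exp (t0 * y + kw θ * z)
  obtain ⟨m1, m2, m3⟩ := hmom f hf τ hτ g hg0 hg
  set E : ℝ := Ex (2 * Real.cos θ) D η g with hE
  have hE0 : 0 ≤ E := FKA.Ex_nonneg hQ0 fun S _ => hg0 _
  set e0 : ℝ := τ * NbP P (kp * a) with he0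
  set S : Cfg → ℝ := Sm (fun z => τ * f z) (kp * a) with hS
  set q : Cfg → ℝ := Sq (fun z => τ * f z) b a with hq
  have hsC : √C ^ 2 = C := Real.sq_sqrt hC0
  have hsq : √C * √C = C := Real.mul_self_sqrt hC0
  have hsC0 : 0 ≤ √C := Real.sqrt_nonneg C
  -- powers of the exponentials
  have hN1 : ∀ s : ℝ, 0 ≤ s → 2 * s ≤ T → Ex (2 * Real.cos θ) D η
      (fun ω => g ω * (Real.exp (s * (N ω : ℝ))) ^ 2) ≤ √C ^ 2 * E := by
    intro s hs hs2
    rw [hsC]
    refine le_trans (FKA.Ex_mono hQ0 fun S' _ => ?_) m1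
    refine mul_le_mul_of_nonneg_left ?_ (hg0 _)
    rw [← Real.exp_nat_mul]
    refine Real.exp_le_exp.2 ?_
    have h4 : (0 : ℝ) ≤ N (cf D η S') := Nat.cast_nonneg _
    have h5 := mul_le_mul_of_nonneg_right hs2 h4
    push_cast
    linarith
  have hS1 : ∀ s : ℝ, |2 * s| ≤ T → Ex (2 * Real.cos θ) D η
      (fun ω => g ω * (Real.exp (s * (S ω - e0))) ^ 2) ≤ √C ^ 2 * E := by
    intro s hs
    rw [hsC]
    refine le_trans (le_of_eq ?_) (m2 (2 * s) hs)
    refine FKA.Ex_congr fun S' _ => ?_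
    rw [← Real.exp_nat_mul]
    congr 2
    push_cast
    ring
  have hq1 : ∀ s : ℝ, 0 ≤ s → 2 * s ≤ T → Ex (2 * Real.cos θ) D η
      (fun ω => g ω * (Real.exp (s * q ω)) ^ 2) ≤ √C ^ 2 * E := by
    intro s hs hs2
    rw [hsC]
    refine le_trans (FKA.Ex_mono hQ0 fun S' _ => ?_) m3
    refine mul_le_mul_of_nonneg_left ?_ (hg0 _)
    rw [← Real.exp_nat_mul]
    refine Real.exp_le_exp.2 ?_
    have h4 : (0 : ℝ) ≤ q (cf D η S') := Sq_nonneg _ _ _ _
    have h5 := mul_le_mul_of_nonneg_right hs2 h4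
    push_cast
    linarith
  have hl4 : 2 * (4 * Real.log M) ≤ T := by rw [hT]; linarith
  have hl2 : 2 * (2 * Real.log M) ≤ T := by rw [hT]; linarith
  have ht4 : |2 * (-(4 * t0))| ≤ T := by
    rw [show 2 * (-(4 * t0)) = -(8 * t0) by ring, abs_neg, abs_of_pos (by positivity), hT]
    linarith
  have ht4' : |2 * (4 * t0)| ≤ T := by
    rw [abs_of_pos (by positivity), hT]
    linarith
  constructor
  · have h3 := ex_cs hQ0 hg0 hsC0 hsC0 hE0 (hN1 (4 * Real.log M) (by positivity) hl4)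
      (hS1 (-(4 * t0)) ht4)
    rw [hsq] at h3
    have e : Ex (2 * Real.cos θ) D η (fun ω => g ω * Yu θ M τ f a (N ω) ω ^ 4) =
        Real.exp (-(4 * (t0 * e0))) * Ex (2 * Real.cos θ) D η (fun ω => g ω *
          (Real.exp (4 * Real.log M * (N ω : ℝ)) * Real.exp (-(4 * t0) * (S ω - e0)))) := by
      rw [← FKA.Ex_mul_left]
      refine FKA.Ex_congr fun S' _ => ?_
      have := congrFun eYu (cf D η S')
      rw [this, mul_pow, ← Real.exp_nat_mul, ← Real.exp_nat_mul]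
      refine alg1 ?_
      push_cast
      ring
    rw [e]
    have h4 := mul_le_mul_of_nonneg_left h3 (Real.exp_pos (-(4 * (t0 * e0)))).le
    refine h4.trans (le_of_eq ?_)
    ring
  · -- the inner factor
    have h5 : Ex (2 * Real.cos θ) D η (fun ω => g ω *
        (Real.exp (2 * t0 * (S ω - e0)) * Real.exp (2 * kw θ * q ω)) ^ 2) ≤ √C ^ 2 * E := by
      have h3 := ex_cs hQ0 hg0 hsC0 hsC0 hE0 (hS1 (4 * t0) ht4')
        (hq1 (4 * kw θ) (by positivity) (by rw [hT]; linarith))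
      rw [hsC]
      rw [hsq] at h3
      refine le_trans (le_of_eq ?_) h3
      refine FKA.Ex_congr fun S' _ => ?_
      rw [mul_pow, ← Real.exp_nat_mul, ← Real.exp_nat_mul, ← Real.exp_add, ← Real.exp_add]
      congr 2
      push_cast
      ring
    have h3 := ex_cs hQ0 hg0 hsC0 hsC0 hE0 (hN1 (2 * Real.log M) (by positivity) hl2) h5
    rw [hsq] at h3
    have e : Ex (2 * Real.cos θ) D η (fun ω => g ω * Yl θ M τ f b a (N ω) ω ^ 2) =
        Real.exp (2 * (t0 * e0)) * Ex (2 * Real.cos θ) D η (fun ω => g ω *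
          (Real.exp (2 * Real.log M * (N ω : ℝ)) *
            (Real.exp (2 * t0 * (S ω - e0)) * Real.exp (2 * kw θ * q ω)))) := by
      rw [← FKA.Ex_mul_left]
      refine FKA.Ex_congr fun S' _ => ?_
      have := congrFun eYl (cf D η S')
      rw [this, mul_pow, ← Real.exp_nat_mul, ← Real.exp_nat_mul]
      refine alg2 ?_
      push_cast
      ring
    rw [e]
    have h4 := mul_le_mul_of_nonneg_left h3 (Real.exp_pos (2 * (t0 * e0))).le
    refine h4.trans (le_of_eq ?_)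
    ring

end Vale.Agent.P167.N.H662.ND
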